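import Mathlib.Analysis.Matrix.Order
import Mathlib.Data.Matrix.ColumnRowPartitioned

open Matrix

namespace Vale.Agent.P075

variable {n k : Type*} [Fintype n] [DecidableEq n] [Fintype k] [DecidableEq k]

omit [Fintype n] [DecidableEq n] in
lemma symm_of_psd {A : Matrix n n ℝ} (h : A.PosSemidef) : Aᵀ = A := by
  have := h.1.eq
  rwa [conjTranspose_eq_transpose_of_trivial] at this

omit [Fintype n] [DecidableEq n] in
lemma herm_of_symm {A : Matrix n n ℝ} (h : Aᵀ = A) : A.IsHermitian := by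
  unfold IsHermitian
  rwa [conjTranspose_eq_transpose_of_trivial]

omit [DecidableEq n] [DecidableEq k] in
lemma psd_conj {A : Matrix n n ℝ} (h : A.PosSemidef) (B : Matrix n k ℝ) :
    (Bᵀ * A * B).PosSemidef := by
  have := h.conjTranspose_mul_mul_same B
  rwa [conjTranspose_eq_transpose_of_trivial] at this

omit [DecidableEq n] [DecidableEq k] in
lemma psd_conj' {A : Matrix n n ℝ} (h : A.PosSemidef) (B : Matrix k n ℝ) :
    (B * A * Bᵀ).PosSemidef := by
  have := psd_conj h Bᵀ
  rwa [transpose_transpose] at this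

omit [DecidableEq n] [DecidableEq k] in
lemma psd_tmul (B : Matrix n k ℝ) : (Bᵀ * B).PosSemidef := by
  have := posSemidef_conjTranspose_mul_self B
  rwa [conjTranspose_eq_transpose_of_trivial] at this

omit [DecidableEq n] [DecidableEq k] in
lemma psd_mult (B : Matrix n k ℝ) : (B * Bᵀ).PosSemidef := by
  have := psd_tmul Bᵀ
  rwa [transpose_transpose] at this

lemma exists_diag {S : Matrix n n ℝ} (hS : Sᵀ = S) :
    ∃ (V : Matrix n n ℝ) (d : n → ℝ), Vᵀ * V = 1 ∧ V * Vᵀ = 1 ∧ S = V * diagonal d * Vᵀ := by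
  have h := herm_of_symm hS
  refine ⟨h.eigenvectorUnitary, h.eigenvalues, ?_, ?_, ?_⟩
  · have := h.eigenvectorUnitary.2.1
    rwa [star_eq_conjTranspose, conjTranspose_eq_transpose_of_trivial] at this
  · have := h.eigenvectorUnitary.2.2
    rwa [star_eq_conjTranspose, conjTranspose_eq_transpose_of_trivial] at this
  · have := h.spectral_theorem
    rw [Unitary.conjStarAlgAut_apply] at this
    simpa [star_eq_conjTranspose, conjTranspose_eq_transpose_of_trivial] using this

lemma pd_conj {m V : Matrix n n ℝ} (hm : m.PosDef) (hV : Vᵀ * V = 1) : (Vᵀ * m * V).PosDef := by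
  have hinj : Function.Injective V.mulVec := by
    intro x y hxy
    have := congrArg (Vᵀ.mulVec) hxy
    simpa [mulVec_mulVec, hV] using this
  have := hm.conjTranspose_mul_mul_same hinj
  rwa [conjTranspose_eq_transpose_of_trivial] at this

lemma conj_back {V X : Matrix n n ℝ} (hV : Vᵀ * V = 1) : Vᵀ * (V * X * Vᵀ) * V = X := by
  calc Vᵀ * (V * X * Vᵀ) * V = (Vᵀ * V) * X * (Vᵀ * V) := by simp only [Matrix.mul_assoc]
    _ = X := by simp [hV]

lemma conj_mul_conj {V X Y : Matrix n n ℝ} (hV : Vᵀ * V = 1) :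
    (V * X * Vᵀ) * (V * Y * Vᵀ) = V * (X * Y) * Vᵀ := by
  calc (V * X * Vᵀ) * (V * Y * Vᵀ) = V * X * (Vᵀ * V) * Y * Vᵀ := by simp only [Matrix.mul_assoc]
    _ = _ := by simp [hV, Matrix.mul_assoc]

/-- Positivity of the solution of a Lyapunov equation. -/
lemma lyap_pos {m X : Matrix n n ℝ} (hm : m.PosDef) (hX : Xᵀ = X)
    (h : (m * X + X * m).PosSemidef) : X.PosSemidef := by
  obtain ⟨V, d, h1, h2, rfl⟩ := exists_diag hX
  apply psd_conj'
  rw [posSemidef_diagonal_iff]
  intro i
  have hpos : 0 < (Vᵀ * m * V) i i := (pd_conj hm h1).diag_pos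
  have h3 := (psd_conj h V).diag_nonneg (i := i)
  have h4 : Vᵀ * (m * (V * diagonal d * Vᵀ) + V * diagonal d * Vᵀ * m) * V
      = (Vᵀ * m * V) * diagonal d + diagonal d * (Vᵀ * m * V) := by
    calc _ = (Vᵀ * m * V) * diagonal d * (Vᵀ * V) + (Vᵀ * V) * diagonal d * (Vᵀ * m * V) := by
          simp only [Matrix.mul_add, Matrix.add_mul, Matrix.mul_assoc]
      _ = _ := by simp [h1]
  rw [h4] at h3
  simp only [Matrix.add_apply, mul_diagonal, diagonal_mul] at h3
  by_contra hneg
  push Not at hneg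
  nlinarith

lemma diag_pos_of_pd {V : Matrix n n ℝ} {d : n → ℝ} (h1 : Vᵀ * V = 1)
    (hM : (V * diagonal d * Vᵀ).PosDef) (i : n) : 0 < d i := by
  have := (pd_conj hM h1).diag_pos (i := i)
  rw [conj_back h1] at this
  simpa using this

lemma exists_lyap {m Y : Matrix n n ℝ} (hm : m.PosDef) (hY : Yᵀ = Y) :
    ∃ S : Matrix n n ℝ, Sᵀ = S ∧ m * S + S * m = Y := by
  obtain ⟨V, r, h1, h2, rfl⟩ := exists_diag (symm_of_psd hm.posSemidef)
  have hr := diag_pos_of_pd h1 hm
  set Y' := Vᵀ * Y * V with hY'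
  have hY's : Y'ᵀ = Y' := by
    simp only [hY', transpose_mul, transpose_transpose, hY, Matrix.mul_assoc]
  let S' : Matrix n n ℝ := Matrix.of fun i j => Y' i j / (r i + r j)
  have hS' : S'ᵀ = S' := by
    ext i j
    have : Y' j i = Y' i j := by
      have := congrFun (congrFun hY's i) j
      simpa using this
    simp [S', this, add_comm]
  refine ⟨V * S' * Vᵀ, ?_, ?_⟩
  · simp only [transpose_mul, transpose_transpose, hS', Matrix.mul_assoc]
  · rw [conj_mul_conj h1, conj_mul_conj h1, ← Matrix.add_mul, ← Matrix.mul_add]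
    have : diagonal r * S' + S' * diagonal r = Y' := by
      ext i j
      have := hr i
      have := hr j
      simp only [Matrix.add_apply, mul_diagonal, diagonal_mul, S', of_apply]
      field_simp
    rw [this, hY']
    have := conj_back (V := Vᵀ) (X := Y) (by simpa using h2)
    simpa using this

lemma exists_sqrt {M : Matrix n n ℝ} (hM : M.PosDef) :
    ∃ m : Matrix n n ℝ, m.PosDef ∧ m * m = M := by
  obtain ⟨V, r, h1, h2, rfl⟩ := exists_diag (symm_of_psd hM.posSemidef)
  have hr := diag_pos_of_pd h1 hM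
  refine ⟨V * diagonal (fun i => √(r i)) * Vᵀ, ?_, ?_⟩
  · have hd : (diagonal (fun i => √(r i))).PosDef :=
      PosDef.diagonal fun i => Real.sqrt_pos.2 (hr i)
    have := pd_conj (V := Vᵀ) hd (by simpa using h2)
    simpa using this
  · rw [conj_mul_conj h1, diagonal_mul_diagonal]
    congr 3
    funext i
    exact Real.mul_self_sqrt (hr i).le

lemma trace_mul_nonneg {A B : Matrix n n ℝ} (hA : A.PosSemidef) (hB : B.PosSemidef) :
    0 ≤ (A * B).trace := by
  obtain ⟨V, d, h1, h2, rfl⟩ := exists_diag (symm_of_psd hA)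
  have hd : ∀ i, 0 ≤ d i := by
    intro i
    have := (psd_conj hA V).diag_nonneg (i := i)
    rw [conj_back h1] at this
    simpa using this
  have : (V * diagonal d * Vᵀ * B).trace = (diagonal d * (Vᵀ * B * V)).trace := by
    rw [Matrix.mul_assoc, Matrix.mul_assoc, trace_mul_comm]
    simp only [Matrix.mul_assoc]
  rw [this]
  simp only [trace, diag, diagonal_mul]
  exact Finset.sum_nonneg fun i _ => mul_nonneg (hd i) (psd_conj hB V).diag_nonneg

/-- Trace Young inequality with exponents 3 and 3/2. -/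
lemma young {T D : Matrix n n ℝ} (hT : T.PosSemidef) (hD : D.PosSemidef) :
    3 * (T * (D * D)).trace ≤ (T * T * T).trace + 2 * (D * D * D).trace := by
  have hs : (T - D)ᵀ = T - D := by rw [transpose_sub, symm_of_psd hT, symm_of_psd hD]
  have h1 : ((T - D) * (T - D)).PosSemidef := by
    have := psd_tmul (T - D)
    rwa [hs] at this
  have h2 : (T + D + D).PosSemidef := (hT.add hD).add hD
  have h3 := trace_mul_nonneg h1 h2
  simp only [Matrix.mul_sub, Matrix.sub_mul, Matrix.mul_add, trace_sub, trace_add,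
    Matrix.mul_assoc] at h3 ⊢
  have e1 : (T * (D * T)).trace = (T * (T * D)).trace := by
    rw [trace_mul_comm T (D * T), Matrix.mul_assoc, trace_mul_comm D, Matrix.mul_assoc]
  have e2 : (D * (T * T)).trace = (T * (T * D)).trace := by
    rw [trace_mul_comm D, Matrix.mul_assoc]
  have e3 : (D * (T * D)).trace = (T * (D * D)).trace := by
    rw [trace_mul_comm D, Matrix.mul_assoc]
  have e4 : (D * (D * T)).trace = (T * (D * D)).trace := by
    rw [trace_mul_comm T, Matrix.mul_assoc]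
  linarith

/-- Rectangular trace Young inequality. -/
lemma young_rect {T : Matrix n n ℝ} {D : Matrix k k ℝ} {C : Matrix n k ℝ} (hT : T.PosSemidef)
    (hD : D.PosDef) (hC : Cᵀ * C = D * D) :
    3 * (T * (C * Cᵀ)).trace ≤ (T * T * T).trace + 2 * (D * D * D).trace := by
  have hu : IsUnit D.det := (isUnit_iff_isUnit_det D).1 hD.isUnit
  have hi1 : D⁻¹ * D = 1 := nonsing_inv_mul D hu
  have hi2 : D * D⁻¹ = 1 := mul_nonsing_inv D hu
  have hpsd : (C * D⁻¹ * Cᵀ).PosSemidef := psd_conj' hD.inv.posSemidef C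
  have hsq : (C * D⁻¹ * Cᵀ) * (C * D⁻¹ * Cᵀ) = C * Cᵀ := by
    calc _ = C * D⁻¹ * (Cᵀ * C) * D⁻¹ * Cᵀ := by simp only [Matrix.mul_assoc]
      _ = C * (D⁻¹ * D) * (D * D⁻¹) * Cᵀ := by rw [hC]; simp only [Matrix.mul_assoc]
      _ = _ := by simp [hi1, hi2]
  have hcube : ((C * D⁻¹ * Cᵀ) * (C * D⁻¹ * Cᵀ) * (C * D⁻¹ * Cᵀ)).trace = (D * D * D).trace := by
    rw [hsq]
    calc (C * Cᵀ * (C * D⁻¹ * Cᵀ)).trace = (C * (Cᵀ * C * D⁻¹ * Cᵀ)).trace := by
          simp only [Matrix.mul_assoc]
      _ = ((Cᵀ * C * D⁻¹ * Cᵀ) * C).trace := trace_mul_comm _ _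
      _ = ((Cᵀ * C) * D⁻¹ * (Cᵀ * C)).trace := by simp only [Matrix.mul_assoc]
      _ = (D * (D * D⁻¹) * (D * D)).trace := by rw [hC]; simp only [Matrix.mul_assoc]
      _ = _ := by simp [hi2, Matrix.mul_assoc]
  have := young hT hpsd
  rwa [hcube, hsq] at this

end Vale.Agent.P075
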